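import Vale.Agent.P216TE.Defs

/-!
# The group theory of the Baumslag-Solitar relation
-/

namespace Vale.Agent.P216TB

open Vale.Agent.P216M Vale.Agent.P216TE

theorem exists_section {K E : Type} [Group K] [Group E] (π : E →* K) (hs : Function.Surjective π)
    (hc : ∀ x y : E, π x = 1 → x * y = y * x) (h3 : ∀ x : E, π x = 1 → x ^ 3 = 1)
    (ν : K →* Multiplicative ℤ) (u : K) (hu : ∀ x, ∃ j : ℤ, ν x = ν u ^ j) (hu1 : ν u ≠ 1)
    (hab : ∀ a b, ν a = 1 → ν b = 1 → a * b = b * a) (htf : ∀ a : K, a ^ 3 = 1 → a = 1)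
    (hdiv : ∀ a, ν a = 1 → ∃ b, ν b = 1 ∧ b ^ 3 = a) :
    ∃ S : K → E, (∀ g, π (S g) = g) ∧ ∀ g h, S (g * h) = S g * S h := by
  obtain ⟨T, hT⟩ := hs u
  have comm : ∀ x y : E, ν (π x) = 1 → ν (π y) = 1 → Commute x y := by
    intro x y hx hy
    obtain ⟨b, hb, e⟩ := hdiv _ hy
    obtain ⟨w, rfl⟩ := hs b
    have h1 : π (x * w * x⁻¹ * w⁻¹) = 1 := by
      simp only [map_mul, map_inv, hab _ _ hx hb]; group
    have h2 : π (y * (w ^ 3)⁻¹) = 1 := by simp [e]
    have h4 : x * w * x⁻¹ = x * w * x⁻¹ * w⁻¹ * w := by group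
    have h5 : x * w ^ 3 * x⁻¹ = w ^ 3 := by
      rw [← conj_pow, h4, Commute.mul_pow (hc _ w h1), h3 _ h1, one_mul]
    have h6 : Commute x (w ^ 3) := by
      have := congrArg (· * x) h5
      simpa [commute_iff_eq] using this
    have h7 : y = y * (w ^ 3)⁻¹ * w ^ 3 := by group
    rw [h7]
    exact Commute.mul_right (hc _ x h2).symm h6
  let L : Subgroup E :=
    { carrier := {x | ∃ (j : ℤ) (w : E), ν (π w) = 1 ∧ x = w ^ 3 * T ^ j}
      one_mem' := ⟨0, 1, by simp, by simp⟩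
      mul_mem' := by
        rintro _ _ ⟨j, w, hw, rfl⟩ ⟨i, v, hv, rfl⟩
        have h1 : ν (π (T ^ j * v * (T ^ j)⁻¹)) = 1 := by simp [hv]
        refine ⟨j + i, w * (T ^ j * v * (T ^ j)⁻¹), by rw [map_mul, map_mul, hw, h1, one_mul], ?_⟩
        rw [(comm _ _ hw h1).mul_pow, conj_pow]
        group
      inv_mem' := by
        rintro _ ⟨j, w, hw, rfl⟩
        refine ⟨-j, (T ^ j)⁻¹ * w⁻¹ * (T ^ j)⁻¹⁻¹, by simp [hw], ?_⟩
        rw [conj_pow]
        group }
  have inj : ∀ x ∈ L, π x = 1 → x = 1 := by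
    rintro _ ⟨j, w, hw, rfl⟩ h
    have h1 := congrArg ν h
    simp only [map_mul, map_pow, map_zpow, hw, one_pow, one_mul, hT, map_one] at h1
    have hj : j = 0 := by
      have h2 := congrArg Multiplicative.toAdd h1
      simp only [toAdd_zpow, smul_eq_mul, toAdd_one, mul_eq_zero] at h2
      exact h2.resolve_right hu1
    subst hj
    simp only [zpow_zero, mul_one, map_pow] at h ⊢
    exact h3 _ (htf _ h)
  have sur : ∀ g, ∃ x ∈ L, π x = g := by
    intro g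
    obtain ⟨j, hj⟩ := hu g
    obtain ⟨b, hb, e⟩ := hdiv (g * (u ^ j)⁻¹) (by simp [hj])
    obtain ⟨w, rfl⟩ := hs b
    exact ⟨_, ⟨j, w, hb, rfl⟩, by simp [e, hT]⟩
  choose S h1 h2 using sur
  refine ⟨S, h2, fun g h => ?_⟩
  have := inj _ (L.mul_mem (h1 (g * h)) (L.inv_mem (L.mul_mem (h1 g) (h1 h)))) (by simp [h2])
  exact mul_inv_eq_one.1 this

theorem split_three {K : Type} [Group K] (ν : K →* Multiplicative ℤ) (hν : ∃ x, ν x ≠ 1)
    (hab : ∀ a b, ν a = 1 → ν b = 1 → a * b = b * a) (htf : ∀ a : K, a ^ 3 = 1 → a = 1)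
    (hdiv : ∀ a, ν a = 1 → ∃ b, ν b = 1 ∧ b ^ 3 = a) : Split K (ZMod 3) := by
  intro σ
  obtain ⟨⟨_, u, rfl⟩, hu⟩ := IsCyclic.exists_generator (α := ν.range)
  have hu' : ∀ x, ∃ j : ℤ, ν x = ν u ^ j := fun x => by
    obtain ⟨j, hj⟩ := hu ⟨_, x, rfl⟩
    exact ⟨j, (congrArg Subtype.val hj).symm⟩
  have hu1 : ν u ≠ 1 := fun h => by
    obtain ⟨x, hx⟩ := hν
    obtain ⟨j, hj⟩ := hu' x
    exact hx (by rw [hj, h, one_zpow])
  obtain ⟨S, h1, h2⟩ := exists_section (CExt.pr σ) (fun g => ⟨⟨0, g⟩, rfl⟩)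
    (fun x y hx => by
      have hx' : x.g = 1 := hx
      ext
      · simp only [CExt.mul_s, hx', σ.l, σ.r, add_comm]
      · simp only [CExt.mul_g, hx', one_mul, mul_one])
    (fun x hx => by
      have hx' : x.g = 1 := hx
      rw [pow_three']
      ext
      · simp only [CExt.mul_s, hx', σ.r, add_zero]
        have : x.s + x.s + x.s = 3 * x.s := by ring
        rw [this, show (3 : ZMod 3) = 0 from rfl, zero_mul]; rfl
      · simp only [CExt.mul_g, hx', one_mul]; rfl) ν u hu' hu1 hab htf hdiv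
  refine ⟨fun g => -(S g).s, fun g h => ?_⟩
  have e1 : (S g).g = g := h1 g
  have e2 : (S h).g = h := h1 h
  simp only [h2, CExt.mul_s, e1, e2]
  abel

theorem not_split_two {H : Type} [Group H] (a b : H →* Multiplicative (ZMod 2)) {z t : H} {q : ℕ}
    (hq : (q : ZMod 2) = 1) (h : t * z = z ^ q * t) (a1 : (a t).toAdd = 1) (a0 : (a z).toAdd = 0)
    (b1 : (b z).toAdd = 1) : ¬ Split H (ZMod 2) := by
  intro hs
  obtain ⟨τ, hτ⟩ := hs ⟨fun g h => (a g).toAdd * (b h).toAdd, by simp, by simp, fun g h l => by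
    simp only [map_mul, toAdd_mul]; ring⟩
  have h0 : τ 1 = 0 := by simpa using (hτ 1 1).symm
  have h1 : ∀ j : ℕ, τ (z ^ j) = j * τ z := fun j => by
    induction j with
    | zero => simpa using h0
    | succ j ih =>
      have := hτ (z ^ j) z
      simp only [map_pow, toAdd_pow, a0, smul_zero, zero_mul, ← pow_succ] at this
      push_cast
      linear_combination ih + this
  have h2 := hτ t z
  have h3 := hτ (z ^ q) t
  simp only [map_pow, toAdd_pow, a0, smul_zero, zero_mul, a1, b1, h, h1, hq] at h2 h3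
  have : (1 : ZMod 2) = 0 := by linear_combination h2 - h3
  exact absurd this (by decide)

variable {G : Type} [Group G] {z t : G} {q : ℕ}

theorem conj_zpowers (h : t * z * t⁻¹ = z ^ q) (k : ℕ) {x : G} (hx : x ∈ Subgroup.zpowers z) :
    t ^ k * x * (t ^ k)⁻¹ = x ^ q ^ k := by
  obtain ⟨m, rfl⟩ := hx
  induction k with
  | zero => simp
  | succ k ih =>
    have e : t ^ (k + 1) * z ^ m * (t ^ (k + 1))⁻¹ = t * (t ^ k * z ^ m * (t ^ k)⁻¹) * t⁻¹ := by
      group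
    simp only at ih ⊢
    rw [e, ih, ← conj_pow, ← conj_zpow, h, pow_succ', pow_mul, ← zpow_natCast z, ← zpow_mul,
      ← zpow_natCast (z ^ m) q, ← zpow_mul, mul_comm]

/-- the normal closure of `z` in the group generated by `z` and `t` -/
def nA (h : t * z * t⁻¹ = z ^ q) : Subgroup G where
  carrier := {x | ∃ k : ℕ, t ^ k * x * (t ^ k)⁻¹ ∈ Subgroup.zpowers z}
  one_mem' := ⟨0, by simp⟩
  mul_mem' := by
    rintro x y ⟨k, hk⟩ ⟨j, hj⟩
    refine ⟨k + j, ?_⟩
    have e : t ^ (k + j) * (x * y) * (t ^ (k + j))⁻¹ =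
        (t ^ j * (t ^ k * x * (t ^ k)⁻¹) * (t ^ j)⁻¹) *
          (t ^ k * (t ^ j * y * (t ^ j)⁻¹) * (t ^ k)⁻¹) := by group
    rw [e, conj_zpowers h j hk, conj_zpowers h k hj]
    exact mul_mem (pow_mem hk _) (pow_mem hj _)
  inv_mem' := by
    rintro x ⟨k, hk⟩
    exact ⟨k, by simpa [mul_assoc] using inv_mem hk⟩

theorem nA_conj (h : t * z * t⁻¹ = z ^ q) (k : ℕ) {a : G} (ha : a ∈ nA h) :
    t ^ k * a * (t ^ k)⁻¹ = a ^ q ^ k := by
  obtain ⟨j, hj⟩ := ha
  have h1 := conj_zpowers h k hj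
  rw [conj_pow] at h1
  have e : t ^ k * a * (t ^ k)⁻¹ =
      (t ^ j)⁻¹ * (t ^ k * (t ^ j * a * (t ^ j)⁻¹) * (t ^ k)⁻¹) * t ^ j := by group
  rw [e, h1]; group

theorem nA_pow (h : t * z * t⁻¹ = z ^ q) {a : G} (ha : a ∈ nA h) :
    ∃ (k : ℕ) (m : ℤ), a ^ q ^ k = z ^ m := by
  obtain ⟨k, m, hm⟩ := id ha
  exact ⟨k, m, by rw [← nA_conj h k ha]; exact hm.symm⟩

theorem nA_zconj (h : t * z * t⁻¹ = z ^ q) (n : ℤ) {a : G} (ha : a ∈ nA h) :
    t ^ n * a * (t ^ n)⁻¹ ∈ nA h := by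
  obtain ⟨k, rfl | rfl⟩ := n.eq_nat_or_neg
  · rw [zpow_natCast, nA_conj h k ha]; exact pow_mem ha _
  · obtain ⟨j, hj⟩ := ha
    refine ⟨j + k, ?_⟩
    convert hj using 1
    group

theorem nA_comm (h : t * z * t⁻¹ = z ^ q) {a b : G} (ha : a ∈ nA h) (hb : b ∈ nA h) :
    a * b = b * a := by
  obtain ⟨k, hk⟩ := ha
  obtain ⟨j, hj⟩ := hb
  obtain ⟨m, hm⟩ := pow_mem hk (q ^ j)
  obtain ⟨n, hn⟩ := pow_mem hj (q ^ k)
  rw [← conj_zpowers h j hk] at hm
  rw [← conj_zpowers h k hj] at hn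
  have ea : a = (t ^ (k + j))⁻¹ * z ^ m * t ^ (k + j) := by simp only at hm; rw [hm]; group
  have eb : b = (t ^ (k + j))⁻¹ * z ^ n * t ^ (k + j) := by simp only at hn; rw [hn]; group
  rw [ea, eb]; group

/-- the group generated by `z` and `t` -/
def gH (h : t * z * t⁻¹ = z ^ q) : Subgroup G where
  carrier := {x | ∃ n : ℤ, x * (t ^ n)⁻¹ ∈ nA h}
  one_mem' := ⟨0, by simp⟩
  mul_mem' := by
    rintro x y ⟨n, hn⟩ ⟨m, hm⟩
    refine ⟨n + m, ?_⟩
    convert mul_mem hn (nA_zconj h n hm) using 1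
    group
  inv_mem' := by
    rintro x ⟨n, hn⟩
    refine ⟨-n, ?_⟩
    convert nA_zconj h (-n) (inv_mem hn) using 1
    group

theorem bsg : BsgGoal := by
  intro G _ tf z t s hs h hz
  set q := 3 ^ s with hq
  have q1 : 1 < q := Nat.one_lt_pow hs (by norm_num)
  have q2 : (q : ZMod 2) = 1 := by
    rw [hq]; push_cast
    rw [show (3 : ZMod 2) = 1 from rfl, one_pow]
  have q3 : 3 ∣ q := dvd_pow_self 3 hs
  clear_value q
  have zinj : ∀ m n : ℤ, z ^ m = z ^ n → m = n :=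
    injective_zpow_iff_not_isOfFinOrder.2 fun hf => by
      obtain ⟨n, hn, e⟩ := isOfFinOrder_iff_pow_eq_one.1 hf
      exact hz (tf z n hn.ne' e)
  have zA : z ∈ nA h := ⟨0, by simp⟩
  have tA : ∀ n : ℤ, t ^ n ∈ nA h → n = 0 := by
    have k0 : ∀ k : ℕ, t ^ k ∈ nA h → k = 0 := fun k hk => by
      have h1 := nA_conj h k zA
      rw [nA_comm h hk zA, mul_inv_cancel_right] at h1
      have h2 := zinj 1 (q ^ k : ℕ) (by rw [zpow_one, zpow_natCast]; exact h1)
      have h3 : q ^ k = 1 := by exact_mod_cast h2.symm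
      exact (Nat.pow_eq_one.1 h3).resolve_left q1.ne'
    intro n hn
    obtain ⟨k, rfl | rfl⟩ := n.eq_nat_or_neg
    · exact_mod_cast k0 k (by simpa using hn)
    · simpa using k0 k (by simpa using inv_mem hn)
  choose n hn using fun x : gH h => x.2
  have nu : ∀ (x : gH h) (m : ℤ), (x : G) * (t ^ m)⁻¹ ∈ nA h → n x = m := fun x m hm => by
    have := tA (n x - m) (by
      convert nA_zconj h (-m) (mul_mem (inv_mem (hn x)) hm) using 1
      group)
    omega
  have nadd : ∀ x y : gH h, n (x * y) = n x + n y := fun x y => nu _ _ (by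
    convert mul_mem (hn x) (nA_zconj h (n x) (hn y)) using 1
    push_cast; group)
  let ν : gH h →* Multiplicative ℤ :=
    MonoidHom.mk' (fun x => Multiplicative.ofAdd (n x)) fun x y => by rw [nadd, ofAdd_add]
  have νA : ∀ x : gH h, ν x = 1 ↔ (x : G) ∈ nA h := fun x =>
    ⟨fun e => by simpa [show n x = 0 from e] using hn x, fun e => nu x 0 (by simpa using e)⟩
  let t' : gH h := ⟨t, 1, by simp⟩
  let z' : gH h := ⟨z, 0, by simpa using zA⟩
  have nt : n t' = 1 := nu _ _ (by simp [t'])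
  have nz : n z' = 0 := nu _ _ (by simpa [z'] using zA)
  choose! k m hkm using fun a (ha : a ∈ nA h) => nA_pow h ha
  have mu : ∀ a ∈ nA h, ∀ (j : ℕ) (r : ℤ), a ^ q ^ j = z ^ r → (m a : ZMod 2) = r := by
    intro a ha j r e
    have h1 : z ^ (m a * (q ^ j : ℕ)) = z ^ (r * (q ^ k a : ℕ)) := by
      rw [zpow_mul, zpow_mul, ← hkm a ha, ← e, zpow_natCast, zpow_natCast, ← pow_mul, ← pow_mul,
        mul_comm]
    have h2 := congrArg (Int.cast : ℤ → ZMod 2) (zinj _ _ h1)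
    simpa [q2] using h2
  have madd : ∀ a ∈ nA h, ∀ b ∈ nA h, (m (a * b) : ZMod 2) = m a + m b := by
    intro a ha b hb
    rw [mu _ (mul_mem ha hb) (k a + k b) (m a * (q ^ k b : ℕ) + m b * (q ^ k a : ℕ))]
    · simp [q2]
    · rw [Commute.mul_pow (nA_comm h ha hb), zpow_add, zpow_mul, zpow_mul, ← hkm a ha, ← hkm b hb,
        zpow_natCast, zpow_natCast, ← pow_mul, ← pow_mul, ← pow_add, ← pow_add, add_comm (k b)]
  have mpow : ∀ a ∈ nA h, ∀ j : ℕ, (m (a ^ q ^ j) : ZMod 2) = m a := by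
    intro a ha j
    rw [mu _ (pow_mem ha _) (k a) (m a * (q ^ j : ℕ))]
    · simp [q2]
    · rw [zpow_mul, ← hkm a ha, zpow_natCast, ← pow_mul, ← pow_mul, mul_comm]
  have mconj : ∀ a ∈ nA h, ∀ i : ℤ, (m (t ^ i * a * (t ^ i)⁻¹) : ZMod 2) = m a := by
    intro a ha i
    obtain ⟨j, rfl | rfl⟩ := i.eq_nat_or_neg
    · rw [zpow_natCast, nA_conj h j ha, mpow a ha]
    · have h1 := nA_zconj h (-j) ha
      rw [← mpow _ h1 j, ← nA_conj h j h1]
      congr 2
      group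
  let β : gH h →* Multiplicative (ZMod 2) :=
    MonoidHom.mk' (fun x => Multiplicative.ofAdd (m ((x : G) * (t ^ n x)⁻¹) : ZMod 2)) fun x y => by
      rw [← ofAdd_add, ← mconj _ (hn y) (n x), ← madd _ (hn x) _ (nA_zconj h _ (hn y)), nadd]
      congr 3
      push_cast; group
  refine ⟨gH h, not_split_two ((Int.castAddHom (ZMod 2)).toMultiplicative.comp ν) β (z := z')
    (t := t') q2 (Subtype.ext ?_) ?_ ?_ ?_,
    ⟨(Int.castAddHom (ZMod 3)).toMultiplicative.comp ν, fun e => ?_⟩, fun K hK hi => ?_⟩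
  · simp only [Subgroup.coe_mul, SubgroupClass.coe_pow, t', z', ← h]; group
  · simp [ν, nt]
  · simp [ν, nz]
  · have := mu z zA 0 1 (by simp)
    simpa [β, nz, z'] using this
  · have := DFunLike.congr_fun e t'
    simp only [MonoidHom.comp_apply, ν, MonoidHom.mk'_apply, nt, MonoidHom.one_apply] at this
    exact absurd this (by decide)
  obtain ⟨d, hd, -, hdK⟩ := Subgroup.exists_pow_mem_of_relIndex_ne_zero hi t'.2
  have hdK' : t ^ d ∈ K := hdK.1
  let ν' : K →* Multiplicative ℤ := ν.comp (Subgroup.inclusion hK)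
  have νA' : ∀ x : K, ν' x = 1 ↔ (x : G) ∈ nA h := fun x => νA _
  refine split_three ν' ⟨⟨_, hdK'⟩, fun e => ?_⟩
    (fun a b ha hb => Subtype.ext (nA_comm h ((νA' a).1 ha) ((νA' b).1 hb)))
    (fun a ha => Subtype.ext (tf a 3 (by norm_num) (congrArg Subtype.val ha))) fun a ha => ?_
  · have := tA d (by simpa using (νA' _).1 e)
    omega
  · have h1 := nA_zconj h (-d) ((νA' a).1 ha)
    have h2 := nA_conj h d h1
    have h3 : t ^ (-d : ℤ) * a * (t ^ (-d : ℤ))⁻¹ ∈ K := by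
      rw [zpow_neg, zpow_natCast]
      exact mul_mem (mul_mem (inv_mem hdK') a.2) (inv_mem (inv_mem hdK'))
    obtain ⟨r, hr⟩ : 3 ∣ q ^ d := q3.trans (dvd_pow_self q hd.ne')
    refine ⟨⟨_, h3⟩ ^ r, (νA' _).2 (pow_mem h1 r), Subtype.ext ?_⟩
    simp only [SubgroupClass.coe_pow]
    rw [← pow_mul, mul_comm r, ← hr, ← h2]
    group

end Vale.Agent.P216TB
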